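import Mathlib
import Vale.Agent.Lib.P137.helper41.Defs

/-!
# P137, pool job E (helper96, backup copy): the tail integral of `1 / (|B(0,|x|)| |x|)`

Dyadic shells: the integral of `1 / (|B(0,|x|)| |x|)` over `{|x| > a}` is at most `2^(d+1) / a`.
-/

namespace Vale.Agent.Lib.P137.H96

open Vale.Agent.Lib.P137 MeasureTheory Metric
open scoped ENNReal

theorem lintegral_norm_gt_le {d : ℕ} (hd : 1 ≤ d) {a : ℝ} (ha : 0 < a) :
    ∫⁻ x in {x : E d | a < ‖x‖}, (volume (ball (0 : E d) ‖x‖))⁻¹ / ENNReal.ofReal ‖x‖ ≤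
      2 ^ (d + 1) / ENNReal.ofReal a := by
  classical
  have _hd1 : 1 ≤ d := hd
  have hκfin : volume (ball (0 : E d) 1) ≠ ⊤ := measure_ball_lt_top.ne
  have hκpos' : 0 < volume (ball (0 : E d) 1) := measure_ball_pos volume 0 one_pos
  obtain ⟨κ, hκdef⟩ : ∃ κ : ℝ, κ = (volume (ball (0 : E d) 1)).toReal := ⟨_, rfl⟩
  have hκ : 0 < κ := by
    rw [hκdef]
    exact ENNReal.toReal_pos hκpos'.ne' hκfin
  have hball : ∀ r : ℝ, 0 < r → volume (ball (0 : E d) r) = ENNReal.ofReal (r ^ d * κ) := by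
    intro r hr
    rw [Measure.addHaar_ball_of_pos volume 0 hr, finrank_euclideanSpace_fin,
      ENNReal.ofReal_mul (pow_nonneg hr.le d), hκdef, ENNReal.ofReal_toReal hκfin]
  -- the dyadic shells
  obtain ⟨S, hSdef⟩ : ∃ S : ℕ → Set (E d),
      S = fun k => {x : E d | 2 ^ k * a ≤ ‖x‖ ∧ ‖x‖ < 2 ^ (k + 1) * a} := ⟨_, rfl⟩
  have hSmem : ∀ k x, x ∈ S k ↔ 2 ^ k * a ≤ ‖x‖ ∧ ‖x‖ < 2 ^ (k + 1) * a := by
    intro k x
    rw [hSdef]
    exact Iff.rfl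
  have hcover : {x : E d | a < ‖x‖} ⊆ ⋃ k, S k := by
    intro x hx
    have hx' : a < ‖x‖ := hx
    have h1 : 1 ≤ ‖x‖ / a := by
      rw [le_div_iff₀ ha]
      linarith
    obtain ⟨n, hn1, hn2⟩ := exists_nat_pow_near h1 (by norm_num : (1 : ℝ) < 2)
    refine Set.mem_iUnion.2 ⟨n, (hSmem n x).2 ⟨?_, ?_⟩⟩
    · exact (le_div_iff₀ ha).1 hn1
    · exact (div_lt_iff₀ ha).1 hn2
  have hSmeas : ∀ k, MeasurableSet (S k) := by
    intro k
    have : S k = {x : E d | 2 ^ k * a ≤ ‖x‖} ∩ {x : E d | ‖x‖ < 2 ^ (k + 1) * a} := by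
      ext x
      rw [hSmem]
      exact Iff.rfl
    rw [this]
    exact (measurableSet_le measurable_const measurable_norm).inter
      (measurableSet_lt measurable_norm measurable_const)
  have hshell : ∀ k : ℕ, ∫⁻ x in S k, (volume (ball (0 : E d) ‖x‖))⁻¹ / ENNReal.ofReal ‖x‖
      ≤ ENNReal.ofReal (2 ^ d / a) * (2⁻¹ : ℝ≥0∞) ^ k := by
    intro k
    have hr : 0 < 2 ^ k * a := by positivity
    have hr1 : 0 < 2 ^ (k + 1) * a := by positivity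
    have hp1 : 0 < (2 ^ k * a) ^ d * κ := mul_pos (pow_pos hr d) hκ
    have hp2 : 0 ≤ ((2 ^ k * a) ^ d * κ)⁻¹ / (2 ^ k * a) :=
      div_nonneg (inv_nonneg.2 hp1.le) hr.le
    have h2 : (2⁻¹ : ℝ≥0∞) ^ k = ENNReal.ofReal ((2⁻¹ : ℝ) ^ k) := by
      rw [ENNReal.ofReal_pow (inv_nonneg.2 zero_le_two), ENNReal.ofReal_inv_of_pos two_pos,
        ENNReal.ofReal_ofNat]
    have hreal : ((2 ^ k * a) ^ d * κ)⁻¹ / (2 ^ k * a) * ((2 ^ (k + 1) * a) ^ d * κ)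
        = 2 ^ d / a * (2⁻¹ : ℝ) ^ k := by
      have hκ0 : κ ≠ 0 := hκ.ne'
      have ha0 : a ≠ 0 := ha.ne'
      have e : (2 ^ (k + 1) * a) ^ d = 2 ^ d * (2 ^ k * a) ^ d := by ring
      rw [e, inv_pow]
      field_simp
    calc ∫⁻ x in S k, (volume (ball (0 : E d) ‖x‖))⁻¹ / ENNReal.ofReal ‖x‖
        ≤ ∫⁻ _ in S k, (volume (ball (0 : E d) (2 ^ k * a)))⁻¹ / ENNReal.ofReal (2 ^ k * a) := by
          refine setLIntegral_mono' (hSmeas k) fun x hx => ?_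
          have hx1 := ((hSmem k x).1 hx).1
          exact ENNReal.div_le_div (ENNReal.inv_le_inv.2 (measure_mono (ball_subset_ball hx1)))
            (ENNReal.ofReal_le_ofReal hx1)
      _ = (volume (ball (0 : E d) (2 ^ k * a)))⁻¹ / ENNReal.ofReal (2 ^ k * a) * volume (S k) :=
          setLIntegral_const _ _
      _ ≤ (volume (ball (0 : E d) (2 ^ k * a)))⁻¹ / ENNReal.ofReal (2 ^ k * a)
            * volume (ball (0 : E d) (2 ^ (k + 1) * a)) := by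
          refine mul_le_mul_right ?_ _
          refine measure_mono fun x hx => ?_
          exact mem_ball_zero_iff.2 ((hSmem k x).1 hx).2
      _ = ENNReal.ofReal (2 ^ d / a) * (2⁻¹ : ℝ≥0∞) ^ k := by
          rw [hball _ hr, hball _ hr1, h2, ← ENNReal.ofReal_inv_of_pos hp1,
            ← ENNReal.ofReal_div_of_pos hr, ← ENNReal.ofReal_mul hp2,
            ← ENNReal.ofReal_mul (div_nonneg (pow_nonneg zero_le_two d) ha.le), hreal]
  calc ∫⁻ x in {x : E d | a < ‖x‖}, (volume (ball (0 : E d) ‖x‖))⁻¹ / ENNReal.ofReal ‖x‖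
      ≤ ∫⁻ x in ⋃ k, S k, (volume (ball (0 : E d) ‖x‖))⁻¹ / ENNReal.ofReal ‖x‖ :=
        lintegral_mono_set hcover
    _ ≤ ∑' k, ∫⁻ x in S k, (volume (ball (0 : E d) ‖x‖))⁻¹ / ENNReal.ofReal ‖x‖ :=
        lintegral_iUnion_le _ _
    _ ≤ ∑' k : ℕ, ENNReal.ofReal (2 ^ d / a) * (2⁻¹ : ℝ≥0∞) ^ k := ENNReal.tsum_le_tsum hshell
    _ = 2 ^ (d + 1) / ENNReal.ofReal a := by
        rw [ENNReal.tsum_mul_left, ENNReal.tsum_geometric, ENNReal.one_sub_inv_two, inv_inv,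
          ENNReal.ofReal_div_of_pos ha, ENNReal.ofReal_pow zero_le_two, ENNReal.ofReal_ofNat,
          pow_succ, ENNReal.mul_div_right_comm]

end Vale.Agent.Lib.P137.H96
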